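import Vale.Agent.P214.INT.Loc
import Vale.Agent.P214.AREA.Area
import Vale.Agent.P214.AREA.JacBd

/-!
# P214, block BRG: cylinder data with approximate tangents give `INT.IntCyl`
-/

open Set Filter Topology MeasureTheory Metric
open scoped RealInnerProductSpace ENNReal

namespace Vale.Agent.P214.BRG

open Vale.Agent.P214 Vale.Agent.P214.FV Vale.Agent.P214.INT

variable {E : Type*} [NormedAddCommGroup E] [InnerProductSpace ℝ E] [FiniteDimensional ℝ E]
  [MeasurableSpace E] [BorelSpace E]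

/-- the smoothed density at a point with an approximate tangent plane -/
lemma tendsto_ratio {m : ℕ} {μ : Measure E} {y : E} {q : ℕ} {T : Submodule ℝ E}
    (h : IsApproxTangent m μ y q T) : Tendsto (ratio m μ y) (𝓝[>] 0) (𝓝 (q * cg m)) := by
  have hcont : Continuous fun y : E => prof (‖y‖ ^ 2) := continuous_prof.comp (by fun_prop)
  have hcs : HasCompactSupport fun y : E => prof (‖y‖ ^ 2) := by
    refine HasCompactSupport.intro (isCompact_closedBall (0 : E) 1) ?_
    intro y hy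
    rw [mem_closedBall, dist_zero_right, not_le] at hy
    exact prof_of_one_le (by nlinarith)
  have h2 := h.2 _ hcont hcs
  rw [integral_plane h.1] at h2
  refine h2.congr' ?_
  filter_upwards [self_mem_nhdsWithin] with r hr
  have hr' : (0:ℝ) < r := hr
  unfold ratio cut
  congr 1
  refine integral_congr_ae (Eventually.of_forall fun z => ?_)
  simp only
  rw [norm_smul, mul_pow, norm_inv, Real.norm_of_nonneg hr'.le, inv_pow]
  congr 1
  rw [div_eq_inv_mul]

/-- **the bridge to the counting block** -/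
theorem exists_intCyl {m : ℕ} {T : Submodule ℝ E} {G : Set E} {h : ℝ} {ν : Measure E}
    {P : E → E →L[ℝ] E} (hC : CylStat m T G h ν P) (hbase : ν (T.starProjection ⁻¹' G)ᶜ = 0)
    (hac : ν ≪ (μH[m] : Measure E)) {θ : E → ℕ}
    (htan : ∀ᵐ y ∂ν, 1 ≤ θ y ∧ ∃ T' : Submodule ℝ E, P y = proj T' ∧
      IsApproxTangent m ν y (θ y) T')
    {c : Set E} (hc : ∀ᵐ y ∂ν, y ∈ c) (hlow : ∀ S, MeasurableSet S → S ⊆ c → μH[m] S ≤ ν S)
    {A : Set E} (hA : ∀ᵐ y ∂ν, y ∈ A) :
    ∃ S : Set E, S ⊆ A ∧ S ⊆ c ∧ S ⊆ T.starProjection ⁻¹' G ∧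
      (∀ y ∈ S, ∃ T' : Submodule ℝ E, P y = proj T' ∧ IsApproxTangent m ν y (θ y) T') ∧
      IntCyl m T G h ν P S θ (fun y => AREA.jac (proj T) (P y)) := by
  have := hC.fin
  have hA' : ∀ᵐ y ∂ν, y ∈ A ∩ T.starProjection ⁻¹' G := by
    have h2 : ∀ᵐ y ∂ν, y ∈ T.starProjection ⁻¹' G := by
      rw [ae_iff]; exact hbase
    filter_upwards [hA, h2] with y h1 h2 using ⟨h1, h2⟩
  obtain ⟨S, hSm, hSA, hSc, hS0, hSt, harea⟩ := AREA.area hac hC.meas htan hc hlow hC.dimT hA'
  have hdim : ∀ᵐ y ∂ν, ∃ S' : Submodule ℝ E, Module.finrank ℝ S' = m ∧ P y = proj S' := hC.proj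
  refine ⟨S, fun y hy => (hSA hy).1, hSc, fun y hy => (hSA hy).2, fun y hy => (hSt y hy).2, ?_⟩
  have hsheets : ∀ B, sheets T S θ B = AREA.fsum (proj T) θ (S ∩ B) := by
    intro B
    funext x
    exact AREA.fsum_subtype (proj T) θ S B x
  refine ⟨hC, hbase, hSm, hS0, fun y hy => (hSt y hy).1, ?_, AREA.aemeasurable_jac hC.meas T,
    Eventually.of_forall fun y => AREA.jac_nonneg _ _, ?_, ?_, ?_, ?_⟩
  · intro y hy
    obtain ⟨-, T', -, hT'⟩ := hSt y hy
    exact tendsto_ratio hT'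
  · filter_upwards [hdim] with y hy
    obtain ⟨S', hS', hP⟩ := hy
    rw [hP]
    exact (AREA.jac_bounds hS' hC.dimT).1
  · filter_upwards [hdim] with y hy
    obtain ⟨S', hS', hP⟩ := hy
    have h1 := AREA.jac_bounds hS' hC.dimT
    unfold INT.tilt
    rw [hP]
    exact h1.2.1.trans h1.2.2.1
  · intro B hB
    rw [hsheets]
    exact (harea B hB).1
  · intro B hB g hg
    have := (harea B hB).2 g hg
    simp only [hsheets]
    exact this

end Vale.Agent.P214.BRG
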